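import Vale.Agent.H91.OneTapeDefs

/-!
# Crossing sequences for one-tape machines

For a boundary `b ≥ 1` (between cells `b - 1` and `b`) the right side of the tape evolves
deterministically as a function of its initial contents and of the sequence of states in
which the head enters it.
-/

namespace Vale.Agent.H91.OneTape

variable {Q Γ : Type}

/-- What the right side of a boundary sees: the contents of the cells `b, b+1, ...` and,
if the head is on the right side, the state and the offset of the head. -/
structure RState (Q Γ : Type) where
  act : Option (Q × ℕ)
  content : ℕ → Γ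

theorem RState.ext' {ρ σ : RState Q Γ} (h1 : ρ.act = σ.act) (h2 : ρ.content = σ.content) :
    ρ = σ := by
  cases ρ; cases σ; simp_all

/-- The right-side view of a configuration. -/
def view (b : ℕ) (c : Cfg Q Γ) : RState Q Γ :=
  ⟨if b ≤ c.head then some (c.state, c.head - b) else none, fun i => c.tape (b + i)⟩

/-- The right-side head data after a move from offset `h` into state `q'`:
a left move from offset `0` leaves the right side. -/
def actAfter (q' : Q) (h : ℕ) : Move → Option (Q × ℕ)
  | Move.right => some (q', h + 1)
  | Move.stay => some (q', h)
  | Move.left => if h = 0 then none else some (q', h - 1)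

/-- One machine step performed on the right side. -/
def tick (M : Machine Q Γ) (ρ : RState Q Γ) : Option (RState Q Γ) :=
  match ρ.act with
  | none => none
  | some (q, h) =>
    match M.trans q (ρ.content h) with
    | none => none
    | some (q', a, d) => some ⟨actAfter q' h d, Function.update ρ.content h a⟩

/-- The head enters the right side in state `q`. -/
def enter (q : Q) (ρ : RState Q Γ) : RState Q Γ := ⟨some (q, 0), ρ.content⟩

/-- Evolution of the right side, labelled by the list of entering states. -/
inductive RRun (M : Machine Q Γ) : RState Q Γ → List Q → RState Q Γ → Prop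
  | refl (ρ : RState Q Γ) : RRun M ρ [] ρ
  | tick {ρ ρ' ρ'' : RState Q Γ} {E : List Q} :
      tick M ρ = some ρ' → RRun M ρ' E ρ'' → RRun M ρ E ρ''
  | enter {ρ ρ'' : RState Q Γ} {E : List Q} (q : Q) :
      ρ.act = none → RRun M (enter q ρ) E ρ'' → RRun M ρ (q :: E) ρ''

theorem tick_of_act_none (M : Machine Q Γ) {ρ : RState Q Γ} (h : ρ.act = none) :
    tick M ρ = none := by
  unfold tick
  rw [h]

/-- The right-side evolution is deterministic: two evolutions with the same entering
states that both end in states without a further tick end in the same state. -/
theorem rrun_deterministic {M : Machine Q Γ} {ρ ρ1 : RState Q Γ} {E : List Q}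
    (h1 : RRun M ρ E ρ1) : ∀ {ρ2 : RState Q Γ}, RRun M ρ E ρ2 →
    tick M ρ1 = none → tick M ρ2 = none → ρ1 = ρ2 := by
  induction h1 with
  | refl ρ =>
      intro ρ2 h2 ht1 _
      cases h2 with
      | refl => rfl
      | tick ht _ => rw [ht1] at ht; cases ht
  | @tick ρ ρ' ρ'' E ht _ ih =>
      intro ρ2 h2 ht1 ht2
      cases h2 with
      | refl => rw [ht2] at ht; cases ht
      | tick ht' h2' =>
          rw [ht] at ht'
          cases ht'
          exact ih h2' ht1 ht2
      | enter q hact _ => rw [tick_of_act_none M hact] at ht; cases ht
  | @enter ρ ρ'' E q hact _ ih =>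
      intro ρ2 h2 ht1 ht2
      cases h2 with
      | tick ht' _ => rw [tick_of_act_none M hact] at ht'; cases ht'
      | enter _ _ h2' => exact ih h2' ht1 ht2

/-- The list of states in which the head enters the right side of boundary `b`
during the first `t` steps from `c`. -/
def crossings (M : Machine Q Γ) (b : ℕ) : ℕ → Cfg Q Γ → List Q
  | 0, _ => []
  | t + 1, c =>
    match step M c with
    | none => []
    | some c' => (if c.head < b ∧ b ≤ c'.head then [c'.state] else []) ++ crossings M b t c'

theorem step_eq_some {M : Machine Q Γ} {c c' : Cfg Q Γ} (h : step M c = some c') :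
    ∃ q a d, M.trans c.state (c.tape c.head) = some (q, a, d) ∧
      c' = ⟨q, Move.apply d c.head, Function.update c.tape c.head a⟩ := by
  unfold step at h
  cases hT : M.trans c.state (c.tape c.head) with
  | none => rw [hT] at h; cases h
  | some p =>
      obtain ⟨q, a, d⟩ := p
      rw [hT] at h
      simp only [Option.some.injEq] at h
      exact ⟨q, a, d, rfl, h.symm⟩

theorem tick_eq {M : Machine Q Γ} {ρ : RState Q Γ} {q q' : Q} {h : ℕ} {a : Γ} {d : Move}
    (hact : ρ.act = some (q, h)) (hT : M.trans q (ρ.content h) = some (q', a, d)) :
    tick M ρ = some ⟨actAfter q' h d, Function.update ρ.content h a⟩ := by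
  unfold tick
  rw [hact]
  simp only [hT]

theorem view_act_pos {b : ℕ} {c : Cfg Q Γ} (h : b ≤ c.head) :
    (view b c).act = some (c.state, c.head - b) := by
  simp only [view, if_pos h]

theorem view_act_neg {b : ℕ} {c : Cfg Q Γ} (h : c.head < b) : (view b c).act = none := by
  have h' : ¬ b ≤ c.head := by omega
  simp only [view, if_neg h']

theorem view_content (b : ℕ) (c : Cfg Q Γ) (i : ℕ) : (view b c).content i = c.tape (b + i) :=
  rfl

theorem view_step_active {M : Machine Q Γ} {b : ℕ} (hb : 1 ≤ b) {c c' : Cfg Q Γ}
    (h : step M c = some c') (hact : b ≤ c.head) : tick M (view b c) = some (view b c') := by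
  obtain ⟨q, a, d, hT, rfl⟩ := step_eq_some h
  have hcont : (view b c).content (c.head - b) = c.tape c.head := by
    rw [view_content]
    congr 1
    omega
  rw [← hcont] at hT
  rw [tick_eq (view_act_pos hact) hT]
  congr 1
  apply RState.ext'
  · show actAfter q (c.head - b) d = _
    cases d with
    | left =>
        by_cases h0 : c.head - b = 0
        · have h3 : Move.apply Move.left c.head < b := by
            simp only [Move.apply]; omega
          rw [view_act_neg (c := ⟨q, Move.apply Move.left c.head, _⟩) h3]
          simp only [actAfter, if_pos h0]
        · have h3 : b ≤ Move.apply Move.left c.head := by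
            simp only [Move.apply]; omega
          rw [view_act_pos (c := ⟨q, Move.apply Move.left c.head, _⟩) h3]
          simp only [actAfter, if_neg h0, Move.apply]
          congr 2
          omega
    | stay =>
        have h3 : b ≤ Move.apply Move.stay c.head := by
          simp only [Move.apply]; omega
        rw [view_act_pos (c := ⟨q, Move.apply Move.stay c.head, _⟩) h3]
        simp only [actAfter, Move.apply]
    | right =>
        have h3 : b ≤ Move.apply Move.right c.head := by
          simp only [Move.apply]; omega
        rw [view_act_pos (c := ⟨q, Move.apply Move.right c.head, _⟩) h3]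
        simp only [actAfter, Move.apply]
        congr 2
        omega
  · funext i
    show Function.update (view b c).content (c.head - b) a i = _
    rw [view_content]
    simp only [Function.update_apply, view_content]
    have hiff : (i = c.head - b) ↔ (b + i = c.head) := by omega
    simp only [hiff]

theorem view_step_content {M : Machine Q Γ} {b : ℕ} {c c' : Cfg Q Γ}
    (h : step M c = some c') (h1 : c.head < b) : (view b c').content = (view b c).content := by
  obtain ⟨q, a, d, _, rfl⟩ := step_eq_some h
  funext i
  simp only [view_content, Function.update_apply]
  have h3 : ¬ b + i = c.head := by omega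
  simp only [h3, if_false]

theorem view_step_enter {M : Machine Q Γ} {b : ℕ} {c c' : Cfg Q Γ}
    (h : step M c = some c') (h1 : c.head < b) (h2 : b ≤ c'.head) :
    view b c' = enter c'.state (view b c) := by
  have hc := view_step_content h h1
  have hle : c'.head ≤ c.head + 1 := by
    obtain ⟨q, a, d, _, rfl⟩ := step_eq_some h
    cases d with
    | left => simp only [Move.apply]; omega
    | stay => simp only [Move.apply]; omega
    | right => simp only [Move.apply]; omega
  apply RState.ext'
  · rw [view_act_pos h2]
    simp only [enter]
    congr 2
    omega
  · exact hc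

theorem view_step_idle {M : Machine Q Γ} {b : ℕ} {c c' : Cfg Q Γ}
    (h : step M c = some c') (h1 : c.head < b) (h2 : c'.head < b) :
    view b c' = view b c := by
  have hc := view_step_content h h1
  apply RState.ext'
  · rw [view_act_neg h1, view_act_neg h2]
  · exact hc

theorem run_succ_eq_some {M : Machine Q Γ} {t : ℕ} {c c' : Cfg Q Γ}
    (h : run M (t + 1) c = some c') : ∃ c1, step M c = some c1 ∧ run M t c1 = some c' := by
  simp only [run] at h
  cases hs : step M c with
  | none => rw [hs] at h; cases h
  | some c1 =>
      rw [hs] at h
      exact ⟨c1, rfl, h⟩

/-- The right-side view of a run is a right-side evolution labelled by the crossings. -/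
theorem rrun_of_run {M : Machine Q Γ} {b : ℕ} (hb : 1 ≤ b) : ∀ (t : ℕ) (c c' : Cfg Q Γ),
    run M t c = some c' → RRun M (view b c) (crossings M b t c) (view b c') := by
  intro t
  induction t with
  | zero =>
      intro c c' h
      simp only [run, Option.some.injEq] at h
      subst h
      exact RRun.refl _
  | succ t ih =>
      intro c c' h
      obtain ⟨c1, hs, hr⟩ := run_succ_eq_some h
      have ih' := ih c1 c' hr
      simp only [crossings, hs]
      by_cases hact : b ≤ c.head
      · have : ¬ (c.head < b ∧ b ≤ c1.head) := by omega
        rw [if_neg this]
        exact RRun.tick (view_step_active hb hs hact) ih'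
      · have h1 : c.head < b := by omega
        by_cases h2 : b ≤ c1.head
        · rw [if_pos ⟨h1, h2⟩]
          rw [view_step_enter hs h1 h2] at ih'
          exact RRun.enter c1.state (view_act_neg h1) ih'
        · have : ¬ (c.head < b ∧ b ≤ c1.head) := by omega
          rw [if_neg this]
          rw [view_step_idle hs h1 (by omega)] at ih'
          exact ih'

theorem tick_view_of_halted {M : Machine Q Γ} (b : ℕ) {c : Cfg Q Γ} (h : step M c = none) :
    tick M (view b c) = none := by
  have hT : M.trans c.state (c.tape c.head) = none := by
    unfold step at h
    cases hT : M.trans c.state (c.tape c.head) with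
    | none => rfl
    | some p => rw [hT] at h; cases h
  by_cases hact : b ≤ c.head
  · have hcont : (view b c).content (c.head - b) = c.tape c.head := by
      rw [view_content]
      congr 1
      omega
    rw [← hcont] at hT
    unfold tick
    rw [view_act_pos hact]
    simp only [hT]
  · exact tick_of_act_none M (view_act_neg (by omega))

/-- Cut lemma: two halting runs whose right sides start in the same state and have the
same crossing sequence end with the same right side. -/
theorem view_eq_of_crossings_eq {M : Machine Q Γ} {b : ℕ} (hb : 1 ≤ b)
    {c1 c2 c1' c2' : Cfg Q Γ} {t1 t2 : ℕ}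
    (hv : view b c1 = view b c2) (h1 : HaltsIn M c1 t1 c1') (h2 : HaltsIn M c2 t2 c2')
    (hE : crossings M b t1 c1 = crossings M b t2 c2) : view b c1' = view b c2' := by
  have r1 := rrun_of_run hb t1 c1 c1' h1.1
  have r2 := rrun_of_run hb t2 c2 c2' h2.1
  rw [hv, hE] at r1
  exact rrun_deterministic r1 r2 (tick_view_of_halted b h1.2) (tick_view_of_halted b h2.2)

theorem step_head_le {M : Machine Q Γ} {c c' : Cfg Q Γ} (h : step M c = some c') :
    c'.head ≤ c.head + 1 := by
  obtain ⟨q, a, d, _, rfl⟩ := step_eq_some h
  cases d with
  | left => simp only [Move.apply]; omega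
  | stay => simp only [Move.apply]; omega
  | right => simp only [Move.apply]; omega

/-- Each step crosses at most one boundary, so the total length of the crossing sequences
at any finite set of boundaries is at most the number of steps. -/
theorem sum_crossings_le {M : Machine Q Γ} (B : Finset ℕ) : ∀ (t : ℕ) (c c' : Cfg Q Γ),
    run M t c = some c' → ∑ b ∈ B, (crossings M b t c).length ≤ t := by
  intro t
  induction t with
  | zero =>
      intro c c' _
      simp [crossings]
  | succ t ih =>
      intro c c' h
      obtain ⟨c1, hs, hr⟩ := run_succ_eq_some h
      have ih' := ih c1 c' hr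
      have hle := step_head_le hs
      have hbound : ∀ b ∈ B, (crossings M b (t + 1) c).length ≤
          (if b = c.head + 1 then 1 else 0) + (crossings M b t c1).length := by
        intro b _
        simp only [crossings, hs, List.length_append]
        by_cases hb : c.head < b ∧ b ≤ c1.head
        · have : b = c.head + 1 := by omega
          rw [if_pos hb, if_pos this]
          simp
        · rw [if_neg hb]
          simp
      calc ∑ b ∈ B, (crossings M b (t + 1) c).length
          ≤ ∑ b ∈ B, ((if b = c.head + 1 then 1 else 0) + (crossings M b t c1).length) :=
            Finset.sum_le_sum hbound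
        _ = (∑ b ∈ B, if b = c.head + 1 then 1 else 0) + ∑ b ∈ B, (crossings M b t c1).length :=
            Finset.sum_add_distrib
        _ ≤ 1 + t := by
            have h1 : (∑ b ∈ B, if b = c.head + 1 then 1 else 0) ≤ 1 := by
              rw [Finset.sum_ite_eq']
              split <;> omega
            omega
        _ = t + 1 := by omega

end Vale.Agent.H91.OneTape
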