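import Mathlib

/-!
# One-tape Turing machines that multiply

A deterministic Turing machine with a single one-way infinite tape (cells `0, 1, 2, ...`),
a type `Q` of states and a tape alphabet `Γ`. One step reads the scanned cell, writes a
symbol, changes state and moves the head left, right or not at all (a left move on cell `0`
leaves the head on cell `0`). The machine halts when the transition function is undefined.
-/

namespace Vale.Agent.H91.OneTape

/-- Head moves. -/
inductive Move
  | left
  | stay
  | right

/-- The new head position after a move (a left move on cell `0` stays on cell `0`). -/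
def Move.apply : Move → ℕ → ℕ
  | Move.left, h => h - 1
  | Move.stay, h => h
  | Move.right, h => h + 1

/-- A deterministic one-tape Turing machine: a start state and a partial transition
function; `trans q a = some (q', a', d)` means: in state `q` reading `a`, write `a'`,
move the head by `d` and enter state `q'`; `trans q a = none` means: halt. -/
structure Machine (Q Γ : Type) where
  start : Q
  trans : Q → Γ → Option (Q × Γ × Move)

/-- A configuration: state, head position, tape contents. -/
structure Cfg (Q Γ : Type) where
  state : Q
  head : ℕ
  tape : ℕ → Γ

variable {Q Γ : Type}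

/-- One step of the machine (`none` if the machine has halted). -/
def step (M : Machine Q Γ) (c : Cfg Q Γ) : Option (Cfg Q Γ) :=
  match M.trans c.state (c.tape c.head) with
  | none => none
  | some (q, a, d) => some ⟨q, d.apply c.head, Function.update c.tape c.head a⟩

/-- `run M t c` is the configuration after exactly `t` steps from `c`
(`none` if the machine halts earlier). -/
def run (M : Machine Q Γ) : ℕ → Cfg Q Γ → Option (Cfg Q Γ)
  | 0, c => some c
  | t + 1, c => (step M c).bind (run M t)

/-- `M` started in `c` halts after exactly `t` steps, in configuration `c'`. -/
def HaltsIn (M : Machine Q Γ) (c : Cfg Q Γ) (t : ℕ) (c' : Cfg Q Γ) : Prop :=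
  run M t c = some c' ∧ step M c' = none

/-- The value of a binary string of length `n`, leftmost bit most significant. -/
def val {n : ℕ} (x : Fin n → Bool) : ℕ :=
  ∑ i : Fin n, if x i then 2 ^ (n - 1 - (i : ℕ)) else 0

/-- The tape symbol of a bit. -/
def bitSym (zero one : Γ) (b : Bool) : Γ := if b then one else zero

/-- The input tape for `x # y`: the bits of `x` on cells `0 .. n-1`, the separator on
cell `n`, the bits of `y` on cells `n+1 .. 2n`, blanks elsewhere. -/
def inputTape (zero one sep blank : Γ) {n : ℕ} (x y : Fin n → Bool) : ℕ → Γ := fun i =>
  if h : i < n then bitSym zero one (x ⟨i, h⟩)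
  else if i = n then sep
  else if h' : i - (n + 1) < n then bitSym zero one (y ⟨i - (n + 1), h'⟩)
  else blank

/-- The initial configuration on input `x # y`: start state, head on the leftmost cell. -/
def init (M : Machine Q Γ) (zero one sep blank : Γ) {n : ℕ} (x y : Fin n → Bool) : Cfg Q Γ :=
  ⟨M.start, 0, inputTape zero one sep blank x y⟩

/-- `M` multiplies: for every `n ≥ 1` and all `x, y` of length `n`, started on `x # y` it
halts with the `2n`-bit binary representation of `val x * val y` (most significant bit
first) on cells `0 .. 2n-1` of its tape. -/
def Multiplies (M : Machine Q Γ) (zero one sep blank : Γ) : Prop :=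
  ∀ n : ℕ, 1 ≤ n → ∀ x y : Fin n → Bool, ∃ (t : ℕ) (c' : Cfg Q Γ),
    HaltsIn M (init M zero one sep blank x y) t c' ∧
    ∀ j : ℕ, j < 2 * n →
      c'.tape j = bitSym zero one (Nat.testBit (val x * val y) (2 * n - 1 - j))

end Vale.Agent.H91.OneTape
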