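import Vale.Agent.H91.OneTapeCross

/-!
# A quadratic lower bound for one-tape multiplication

Multiplying `x` by `1` moves the `n` bits of `x` by `n` cells; a crossing-sequence
count then shows that some input of length `n` needs at least `n^2 / (6 |Q|)` steps.
-/

namespace Vale.Agent.H91.OneTape

variable {Q Γ : Type}

theorem val_succ {n : ℕ} (x : Fin (n + 1) → Bool) :
    val x = 2 * val (fun i : Fin n => x i.castSucc) + (if x (Fin.last n) then 1 else 0) := by
  unfold val
  rw [Fin.sum_univ_castSucc, Finset.mul_sum]
  congr 1
  · apply Finset.sum_congr rfl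
    intro i _
    have hi : n + 1 - 1 - (i.castSucc : ℕ) = (n - 1 - (i : ℕ)) + 1 := by
      have := i.isLt
      simp only [Fin.val_castSucc]
      omega
    rw [hi]
    by_cases hx : x i.castSucc
    · simp only [hx, if_true, pow_succ]
      ring
    · simp only [hx]
      simp
  · simp

theorem testBit_val : ∀ (n : ℕ) (x : Fin n → Bool) (i : Fin n),
    Nat.testBit (val x) (n - 1 - (i : ℕ)) = x i := by
  intro n
  induction n with
  | zero => intro x i; exact i.elim0
  | succ n ih =>
      intro x i
      rw [val_succ]
      induction i using Fin.lastCases with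
      | last =>
          have h0 : n + 1 - 1 - ((Fin.last n : Fin (n + 1)) : ℕ) = 0 := by
            simp
          rw [h0, Nat.testBit_zero]
          by_cases hx : x (Fin.last n)
          · simp only [hx, if_true]
            have h5 : (2 * val (fun i : Fin n => x i.castSucc) + 1) % 2 = 1 := by omega
            rw [h5]
            simp
          · simp only [hx]
            have h5 : (2 * val (fun i : Fin n => x i.castSucc) + 0) % 2 = 0 := by omega
            simp only [Bool.false_eq_true, if_false]
            rw [h5]
            simp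
      | cast j =>
          have hj : n + 1 - 1 - ((j.castSucc : Fin (n + 1)) : ℕ) = (n - 1 - (j : ℕ)) + 1 := by
            have := j.isLt
            simp only [Fin.val_castSucc]
            omega
          rw [hj, Nat.testBit_succ]
          have hdiv : (2 * val (fun i : Fin n => x i.castSucc) +
              (if x (Fin.last n) then 1 else 0)) / 2 = val (fun i : Fin n => x i.castSucc) := by
            split <;> omega
          rw [hdiv]
          exact ih (fun i : Fin n => x i.castSucc) j

/-- The string `0 ... 0 1` of length `n`. -/
def yOne (n : ℕ) : Fin n → Bool := fun j => decide ((j : ℕ) + 1 = n)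

theorem val_yOne {n : ℕ} (hn : 1 ≤ n) : val (yOne n) = 1 := by
  unfold val yOne
  rw [Finset.sum_eq_single (⟨n - 1, by omega⟩ : Fin n)]
  · have h1 : n - 1 + 1 = n := by omega
    simp [h1]
  · intro j _ hj
    have h2 : ¬ ((j : ℕ) + 1 = n) := by
      intro h
      apply hj
      apply Fin.ext
      simp only
      omega
    simp [h2]
  · intro h
    exact absurd (Finset.mem_univ _) h

theorem bitSym_injective {zero one : Γ} (h01 : zero ≠ one) {a b : Bool}
    (h : bitSym zero one a = bitSym zero one b) : a = b := by
  cases a <;> cases b
  · rfl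
  · simp [bitSym] at h
    exact absurd h h01
  · simp [bitSym] at h
    exact absurd h.symm h01
  · rfl

theorem halts_unique {M : Machine Q Γ} : ∀ (t t' : ℕ) (c c' c'' : Cfg Q Γ),
    HaltsIn M c t c' → HaltsIn M c t' c'' → t = t' ∧ c' = c'' := by
  intro t
  induction t with
  | zero =>
      intro t' c c' c'' h h'
      have hc : c' = c := by
        have := h.1
        simp only [run, Option.some.injEq] at this
        exact this.symm
      subst hc
      cases t' with
      | zero =>
          have := h'.1
          simp only [run, Option.some.injEq] at this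
          exact ⟨rfl, this⟩
      | succ t' =>
          obtain ⟨c1, hs, _⟩ := run_succ_eq_some h'.1
          rw [h.2] at hs
          cases hs
  | succ t ih =>
      intro t' c c' c'' h h'
      obtain ⟨c1, hs, hr⟩ := run_succ_eq_some h.1
      cases t' with
      | zero =>
          have hc : c'' = c := by
            have := h'.1
            simp only [run, Option.some.injEq] at this
            exact this.symm
          subst hc
          rw [h'.2] at hs
          cases hs
      | succ t' =>
          obtain ⟨c2, hs', hr'⟩ := run_succ_eq_some h'.1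
          rw [hs] at hs'
          cases hs'
          obtain ⟨h1, h2⟩ := ih t' c1 c' c'' ⟨hr, h.2⟩ ⟨hr', h'.2⟩
          exact ⟨by omega, h2⟩

/-- If two inputs `x # y`, `x' # y` with `val y = 1` agree from position `b` on and have
the same crossing sequence at boundary `b ≤ n`, then `x = x'`. -/
theorem prefix_determined {M : Machine Q Γ} {zero one sep blank : Γ} (h01 : zero ≠ one)
    {n b : ℕ} (hb1 : 1 ≤ b) (hbn : b ≤ n) {x x' y : Fin n → Bool} (hy : val y = 1)
    {t t' : ℕ} {c c' : Cfg Q Γ}
    (h : HaltsIn M (init M zero one sep blank x y) t c)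
    (hout : ∀ j : ℕ, j < 2 * n →
      c.tape j = bitSym zero one (Nat.testBit (val x * val y) (2 * n - 1 - j)))
    (h' : HaltsIn M (init M zero one sep blank x' y) t' c')
    (hout' : ∀ j : ℕ, j < 2 * n →
      c'.tape j = bitSym zero one (Nat.testBit (val x' * val y) (2 * n - 1 - j)))
    (hsuf : ∀ i : Fin n, b ≤ (i : ℕ) → x i = x' i)
    (hE : crossings M b t (init M zero one sep blank x y) =
      crossings M b t' (init M zero one sep blank x' y)) : x = x' := by
  have hv : view b (init M zero one sep blank x y) = view b (init M zero one sep blank x' y) := by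
    apply RState.ext'
    · rw [view_act_neg (show (init M zero one sep blank x y).head < b from hb1),
        view_act_neg (show (init M zero one sep blank x' y).head < b from hb1)]
    · funext k
      simp only [view_content, init, inputTape]
      by_cases hk : b + k < n
      · rw [dif_pos hk, dif_pos hk, hsuf ⟨b + k, hk⟩ (by simp)]
      · rw [dif_neg hk, dif_neg hk]
  have hfin := view_eq_of_crossings_eq hb1 hv h h' hE
  funext i
  have hcell : c.tape (n + (i : ℕ)) = c'.tape (n + (i : ℕ)) := by
    have h1 := congrArg (fun ρ => ρ.content (n - b + (i : ℕ))) hfin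
    simp only [view_content] at h1
    have h2 : b + (n - b + (i : ℕ)) = n + (i : ℕ) := by omega
    rw [h2] at h1
    exact h1
  have hi := i.isLt
  have hpos : 2 * n - 1 - (n + (i : ℕ)) = n - 1 - (i : ℕ) := by omega
  rw [hout (n + (i : ℕ)) (by omega), hout' (n + (i : ℕ)) (by omega), hy, Nat.mul_one,
    Nat.mul_one, hpos, testBit_val, testBit_val] at hcell
  exact bitSym_injective h01 hcell

theorem list_eq_of_getElem?_eq {α : Type} {L : ℕ} {l1 l2 : List α} (h1 : l1.length ≤ L)
    (h2 : l2.length ≤ L) (h : ∀ i : Fin L, l1[(i : ℕ)]? = l2[(i : ℕ)]?) : l1 = l2 := by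
  apply List.ext_getElem?
  intro i
  by_cases hi : i < L
  · exact h ⟨i, hi⟩
  · rw [List.getElem?_eq_none (by omega), List.getElem?_eq_none (by omega)]

theorem sum_two_pow_lt (k : ℕ) : ∑ j ∈ Finset.range k, 2 ^ j < 2 ^ k := by
  induction k with
  | zero => simp
  | succ k ih =>
      rw [Finset.sum_range_succ, pow_succ]
      omega

/-- The quadratic lower bound. -/
theorem quadratic_lower_bound [Fintype Q] (M : Machine Q Γ) (zero one sep blank : Γ)
    (h01 : zero ≠ one) (hM : Multiplies M zero one sep blank) (n : ℕ) (hn : 2 ≤ n) :
    ∃ x y : Fin n → Bool, ∀ (t : ℕ) (c' : Cfg Q Γ),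
      HaltsIn M (init M zero one sep blank x y) t c' → n ^ 2 ≤ 6 * Fintype.card Q * t := by
  classical
  have hn1 : 1 ≤ n := by omega
  have hy := val_yOne hn1
  choose T fin hhalt hout using fun x : Fin n → Bool => hM n hn1 x (yOne n)
  set q := Fintype.card Q with hq
  have hqpos : 0 < q := Fintype.card_pos_iff.mpr ⟨M.start⟩
  set k := n / 2 with hk
  set L := (n - k) / q with hL
  let E : ℕ → (Fin n → Bool) → List Q := fun b x =>
    crossings M b (T x) (init M zero one sep blank x (yOne n))
  -- counting the inputs with a short crossing sequence at boundary `b`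
  have hcount : ∀ b : ℕ, 1 ≤ b → b ≤ n →
      (Finset.univ.filter (fun x : Fin n → Bool => (E b x).length ≤ L)).card ≤
        2 ^ (n - b) * (q + 1) ^ L := by
    intro b hb1 hbn
    let φ : (Fin n → Bool) → (Fin (n - b) → Bool) × (Fin L → Option Q) := fun x =>
      (fun j => x ⟨b + (j : ℕ), by have := j.isLt; omega⟩, fun i => (E b x)[(i : ℕ)]?)
    have hinj : Set.InjOn φ
        (Finset.univ.filter (fun x : Fin n → Bool => (E b x).length ≤ L) : Finset _) := by
      intro x hx x' hx' hφ
      have hx : (E b x).length ≤ L := by
        have := Finset.mem_coe.mp hx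
        simpa using this
      have hx' : (E b x').length ≤ L := by
        have := Finset.mem_coe.mp hx'
        simpa using this
      have h1 := congrArg Prod.fst hφ
      have h2 := congrArg Prod.snd hφ
      simp only [φ] at h1 h2
      have hsuf : ∀ i : Fin n, b ≤ (i : ℕ) → x i = x' i := by
        intro i hi
        have hlt : (i : ℕ) - b < n - b := by have := i.isLt; omega
        have h3 := congrFun h1 ⟨(i : ℕ) - b, hlt⟩
        have h4 : (⟨b + ((i : ℕ) - b), by have := i.isLt; omega⟩ : Fin n) = i := by
          apply Fin.ext
          simp only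
          omega
        simp only [h4] at h3
        exact h3
      have hE : E b x = E b x' :=
        list_eq_of_getElem?_eq hx hx' (fun i => congrFun h2 i)
      exact prefix_determined h01 hb1 hbn hy (hhalt x) (hout x) (hhalt x') (hout x') hsuf hE
    have hcard := Finset.card_le_card_of_injOn (t := Finset.univ) φ
      (fun _ _ => Finset.mem_univ _) hinj
    have huniv : (Finset.univ : Finset ((Fin (n - b) → Bool) × (Fin L → Option Q))).card =
        2 ^ (n - b) * (q + 1) ^ L := by
      rw [Finset.card_univ, Fintype.card_prod, Fintype.card_fun, Fintype.card_fun,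
        Fintype.card_bool, Fintype.card_fin, Fintype.card_fin, Fintype.card_option]
    rw [huniv] at hcard
    exact hcard
  -- union bound
  let bad : ℕ → Finset (Fin n → Bool) := fun j =>
    Finset.univ.filter (fun x : Fin n → Bool => (E (n - j) x).length ≤ L)
  have hkn : k ≤ n := Nat.div_le_self n 2
  have hbadcard : ∀ j ∈ Finset.range k, (bad j).card ≤ 2 ^ j * (q + 1) ^ L := by
    intro j hj
    have hj' : j < k := Finset.mem_range.mp hj
    have h1 := hcount (n - j) (by omega) (by omega)
    have h2 : n - (n - j) = j := by omega
    rw [h2] at h1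
    exact h1
  have hunion : ((Finset.range k).biUnion bad).card < 2 ^ n := by
    calc ((Finset.range k).biUnion bad).card
        ≤ ∑ j ∈ Finset.range k, (bad j).card := Finset.card_biUnion_le
      _ ≤ ∑ j ∈ Finset.range k, 2 ^ j * (q + 1) ^ L := Finset.sum_le_sum hbadcard
      _ = (∑ j ∈ Finset.range k, 2 ^ j) * (q + 1) ^ L := by rw [Finset.sum_mul]
      _ < 2 ^ k * (q + 1) ^ L :=
          Nat.mul_lt_mul_of_pos_right (sum_two_pow_lt k) (by positivity)
      _ ≤ 2 ^ k * 2 ^ (q * L) := by
          apply Nat.mul_le_mul_left
          rw [pow_mul]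
          exact Nat.pow_le_pow_left (Nat.lt_two_pow_self) L
      _ = 2 ^ (k + q * L) := by rw [pow_add]
      _ ≤ 2 ^ n := by
          apply Nat.pow_le_pow_right (by norm_num)
          have : q * L ≤ n - k := Nat.mul_div_le (n - k) q
          omega
  have hex : ∃ x : Fin n → Bool, x ∉ (Finset.range k).biUnion bad := by
    by_contra hcon
    have hall : ∀ x : Fin n → Bool, x ∈ (Finset.range k).biUnion bad := by
      intro x
      by_contra hx
      exact hcon ⟨x, hx⟩
    have huniv : (Finset.range k).biUnion bad = Finset.univ :=
      Finset.eq_univ_iff_forall.mpr hall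
    rw [huniv, Finset.card_univ, Fintype.card_fun, Fintype.card_bool, Fintype.card_fin] at hunion
    exact lt_irrefl _ hunion
  obtain ⟨x, hx⟩ := hex
  have hlong : ∀ j ∈ Finset.range k, L + 1 ≤ (E (n - j) x).length := by
    intro j hj
    by_contra hcon
    apply hx
    rw [Finset.mem_biUnion]
    refine ⟨j, hj, ?_⟩
    simp only [bad, Finset.mem_filter, Finset.mem_univ, true_and]
    omega
  refine ⟨x, yOne n, ?_⟩
  intro t c' hhalts
  obtain ⟨ht, _⟩ := halts_unique t (T x) _ c' (fin x) hhalts (hhalt x)
  rw [ht]
  -- the total number of crossings is at most the running time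
  have hinjimg : Set.InjOn (fun j : ℕ => n - j) (Finset.range k : Finset ℕ) := by
    intro a ha b hb hab
    simp only [Finset.coe_range, Set.mem_Iio] at ha hb
    simp only at hab
    omega
  have hsum := sum_crossings_le ((Finset.range k).image (fun j => n - j)) (T x)
    (init M zero one sep blank x (yOne n)) (fin x) (hhalt x).1
  rw [Finset.sum_image hinjimg] at hsum
  have hlow : k * (L + 1) ≤ ∑ j ∈ Finset.range k, (E (n - j) x).length := by
    have := Finset.card_nsmul_le_sum (Finset.range k) (fun j => (E (n - j) x).length) (L + 1) hlong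
    simpa using this
  have hT : k * (L + 1) ≤ T x := le_trans hlow hsum
  -- arithmetic
  have hdiv : n - k < q * (L + 1) := by
    have := Nat.lt_mul_div_succ (n - k) hqpos
    simpa [hL, Nat.succ_eq_add_one] using this
  have hk1 : n ≤ 2 * k + 1 := by omega
  have hk2 : 2 * k ≤ n := by omega
  have hk3 : 1 ≤ k := by omega
  obtain ⟨m, hm⟩ : ∃ m, n = k + m := ⟨n - k, by omega⟩
  have hm1 : n - k = m := by omega
  rw [hm1] at hdiv
  have h1 : k * m ≤ q * T x := by
    calc k * m ≤ k * (q * (L + 1)) := Nat.mul_le_mul_left k (le_of_lt hdiv)
      _ = q * (k * (L + 1)) := by ring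
      _ ≤ q * T x := Nat.mul_le_mul_left q hT
  have h2 : n ≤ 3 * k := by omega
  have h3 : n ≤ 2 * m := by omega
  calc n ^ 2 = n * n := by ring
    _ ≤ (3 * k) * (2 * m) := Nat.mul_le_mul h2 h3
    _ = 6 * (k * m) := by ring
    _ ≤ 6 * (q * T x) := Nat.mul_le_mul_left 6 h1
    _ = 6 * q * T x := by ring

end Vale.Agent.H91.OneTape
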